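import Vale.Agent.P011.E6X.XDefs

/-!
Block E6X: the hermitian form in the coordinates of the first Tits construction.
-/

open NumberField Matrix

namespace Vale.Agent.P011.E6X

open Vale.Agent.P011.MPQ Vale.Agent.P011.D4 Vale.Agent.P011.D4.Oct Vale.Agent.P011.E6
open Vale.Agent.P011.E6O
open Vale.Agent.P011.E6O.Sl (XX YY ZZ)

variable {k E : Type} [Field k] [Field E] [Algebra k E]
  {σ : E ≃ₐ[k] E} {g : Fin 3 → Eˣ} {al : E} {a b c : kˣ}

theorem bil_co (hal : al ^ 2 = ((up E a : Eˣ) : E)) (x z : OctL E a b c) :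
    bil x z = ca al x.fst * cb al z.fst + cb al x.fst * ca al z.fst -
      (up E b : E) * (cg al x.fst * cd al z.fst + cd al x.fst * cg al z.fst) -
      (up E c : E) * (ca al x.snd * cb al z.snd + cb al x.snd * ca al z.snd -
      (up E b : E) * (cg al x.snd * cd al z.snd + cd al x.snd * cg al z.snd)) := by
  simp only [bil, Oct.norm, fst_add, snd_add, nrd_co hal, ca_add, cb_add, cg_add, cd_add]
  ring

theorem cb_qmap (hσ : σ al = -al) (q : Qt (up E a) (up E b)) :
    cb al (qmap σ q) = σ (ca al q) := by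
  simp only [ca, cb, re_qmap, imI_qmap, map_add, map_mul, hσ]
  ring

theorem cg_qmap (hσ : σ al = -al) (q : Qt (up E a) (up E b)) :
    cg al (qmap σ q) = σ (cd al q) := by
  simp only [cg, cd, imJ_qmap, imK_qmap, map_sub, map_mul, hσ]
  ring

theorem cd_qmap (hσ : σ al = -al) (q : Qt (up E a) (up E b)) :
    cd al (qmap σ q) = σ (cg al q) := by
  simp only [cg, cd, imJ_qmap, imK_qmap, map_add, map_mul, hσ]
  ring

/-- The form in the coordinates. -/
theorem her_co (h2 : (2 : E) ≠ 0) (hal : al ^ 2 = algebraMap k E a) (hσal : σ al = -al)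
    (x y : AlbL E a b c) :
    her σ g x y =
      (∑ i, ∑ j, (g i : E) * g j * (XX al x i j * σ (XX al y i j))) +
      (∑ j, (![(g 1 : E) * g 2, g 2 * g 0, g 0 * g 1] : Fin 3 → E) j *
        (-(up E c : E) * (YY al x 0 j * σ (YY al y 0 j)) -
          (up E b : E) * (YY al x 1 j * σ (YY al y 1 j)) +
          ((up E b : E) * (up E c : E))⁻¹ * (YY al x 2 j * σ (YY al y 2 j)))) +
      ∑ i, (![(g 1 : E) * g 2, g 2 * g 0, g 0 * g 1] : Fin 3 → E) i *
        (-(up E c : E)⁻¹ * (ZZ al x i 0 * σ (ZZ al y i 0)) -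
          (up E b : E)⁻¹ * (ZZ al x i 1 * σ (ZZ al y i 1)) +
          ((up E b : E) * (up E c : E)) * (ZZ al x i 2 * σ (ZZ al y i 2))) := by
  have hal' : al ^ 2 = ((up E a : Eˣ) : E) := hal
  have hb : (up E b : E) ≠ 0 := (up E b).ne_zero
  have hc : (up E c : E) ≠ 0 := (up E c).ne_zero
  have sb : σ (up E b : E) = (up E b : E) := σ.commutes _
  have sc : σ (up E c : E) = (up E c : E) := σ.commutes _
  simp only [her, Alb.tf, Alb.wt, amap, omap, bil_co hal', bil_smul_left, H493.ca_qmap hσal,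
    cb_qmap hσal, cg_qmap hσal, cd_qmap hσal, fst_smul, snd_smul, ca_smul,
    cb_smul, cg_smul, cd_smul, XX, YY, ZZ, LinearMap.coe_mk, AddHom.coe_mk,
    Fin.sum_univ_three, Matrix.of_apply, Matrix.cons_val_zero, Matrix.cons_val_one,
    Matrix.cons_val, map_mul, map_neg, sb, sc, map_sub]
  field_simp
  ring

/-- The coordinates. -/
def co (al : E) : AlbL E a b c →ₗ[E] (Fin 3 × Fin 3 × Fin 3 → E) where
  toFun y p := (![XX al y, YY al y, ZZ al y] : Fin 3 → Matrix (Fin 3) (Fin 3) E) p.1 p.2.1 p.2.2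
  map_add' x y := by
    funext ⟨t, i, j⟩
    fin_cases t <;> simp
  map_smul' x y := by
    funext ⟨t, i, j⟩
    fin_cases t <;> simp

theorem co_inj (h2 : (2 : E) ≠ 0) (hal : al ^ 2 = algebraMap k E a) {x y : AlbL E a b c}
    (h : co al x = co al y) : x = y := by
  apply Sl.ext_Tits h2 hal
  · ext i j
    exact congrFun h (0, i, j)
  · ext i j
    exact congrFun h (1, i, j)
  · ext i j
    exact congrFun h (2, i, j)

/-- The coefficients of the form. -/
noncomputable def cf (g : Fin 3 → Eˣ) (b c : kˣ) (p : Fin 3 × Fin 3 × Fin 3) : E :=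
  (![(g p.2.1 : E) * g p.2.2,
    (![(g 1 : E) * g 2, g 2 * g 0, g 0 * g 1] : Fin 3 → E) p.2.2 *
      (![-(up E c : E), -(up E b : E), ((up E b : E) * (up E c : E))⁻¹] : Fin 3 → E) p.2.1,
    (![(g 1 : E) * g 2, g 2 * g 0, g 0 * g 1] : Fin 3 → E) p.2.1 *
      (![-(up E c : E)⁻¹, -(up E b : E)⁻¹, (up E b : E) * (up E c : E)] : Fin 3 → E) p.2.2] :
    Fin 3 → E) p.1

theorem her_cf (h2 : (2 : E) ≠ 0) (hal : al ^ 2 = algebraMap k E a) (hσal : σ al = -al)
    (x y : AlbL E a b c) :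
    her σ g x y = ∑ p, cf g b c p * (co al x p * σ (co al y p)) := by
  rw [her_co h2 hal hσal]
  simp only [Fintype.sum_prod_type, Fin.sum_univ_three, cf, co, LinearMap.coe_mk, AddHom.coe_mk,
    Matrix.cons_val_zero, Matrix.cons_val_one, Matrix.cons_val]
  ring

theorem nw_co (w : E →+* ℂ) (y : AlbL E a b c) : nw w al y = ∑ p, ‖w (co al y p)‖ := by
  simp only [nw, Fintype.sum_prod_type, Fin.sum_univ_three, co, LinearMap.coe_mk, AddHom.coe_mk,
    Matrix.cons_val_zero, Matrix.cons_val_one, Matrix.cons_val]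
  ring

theorem nw_nonneg (w : E →+* ℂ) (y : AlbL E a b c) : 0 ≤ nw w al y := by
  rw [nw_co]
  exact Finset.sum_nonneg fun _ _ => norm_nonneg _

theorem co_le_nw (w : E →+* ℂ) (y : AlbL E a b c) (p : Fin 3 × Fin 3 × Fin 3) :
    ‖w (co al y p)‖ ≤ nw w al y := by
  rw [nw_co]
  exact Finset.single_le_sum (f := fun p => ‖w (co al y p)‖) (fun _ _ => norm_nonneg _)
    (Finset.mem_univ p)

theorem nw_add_le (w : E →+* ℂ) (x y : AlbL E a b c) :
    nw w al (x + y) ≤ nw w al x + nw w al y := by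
  rw [nw_co, nw_co, nw_co, ← Finset.sum_add_distrib]
  refine Finset.sum_le_sum fun p _ => ?_
  rw [map_add, Pi.add_apply, map_add]
  exact norm_add_le _ _

theorem nw_neg (w : E →+* ℂ) (y : AlbL E a b c) : nw w al (-y) = nw w al y := by
  rw [nw_co, nw_co]
  refine Finset.sum_congr rfl fun p _ => ?_
  rw [map_neg, Pi.neg_apply, map_neg, _root_.norm_neg]

theorem nw_smul (w : E →+* ℂ) (t : E) (y : AlbL E a b c) :
    nw w al (t • y) = ‖w t‖ * nw w al y := by
  rw [nw_co, nw_co, Finset.mul_sum]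
  refine Finset.sum_congr rfl fun p _ => ?_
  rw [map_smul, Pi.smul_apply, smul_eq_mul, map_mul, _root_.norm_mul]

theorem nw_zero (w : E →+* ℂ) : nw w al (0 : AlbL E a b c) = 0 := by
  rw [nw_co]
  simp

theorem nw_eq_zero (h2 : (2 : E) ≠ 0) (hal : al ^ 2 = algebraMap k E a) {w : E →+* ℂ}
    {y : AlbL E a b c} (h : nw w al y = 0) : y = 0 := by
  rw [nw_co, Finset.sum_eq_zero_iff_of_nonneg fun _ _ => norm_nonneg _] at h
  apply co_inj h2 hal
  rw [map_zero]
  funext p
  exact (map_eq_zero w).mp (norm_eq_zero.mp (h p (Finset.mem_univ p)))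

/-- The form is bounded. -/
theorem her_bound (h2 : (2 : E) ≠ 0) (hal : al ^ 2 = algebraMap k E a) (hσal : σ al = -al)
    {w : E →+* ℂ} (hw : SC σ w) :
    ∃ C : ℝ, 0 < C ∧ ∀ x y : AlbL E a b c, ‖w (her σ g x y)‖ ≤ C * nw w al x * nw w al y := by
  refine ⟨∑ p, ‖w (cf g b c p)‖ + 1, by positivity, fun x y => ?_⟩
  rw [her_cf h2 hal hσal, map_sum, mul_assoc, add_mul, Finset.sum_mul]
  refine (norm_sum_le _ _).trans (le_trans (Finset.sum_le_sum fun p _ => ?_)
    (le_add_of_nonneg_right (mul_nonneg zero_le_one (mul_nonneg (nw_nonneg w x)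
      (nw_nonneg w y)))))
  rw [map_mul, map_mul, hw, _root_.norm_mul, _root_.norm_mul, RCLike.norm_conj]
  exact mul_le_mul_of_nonneg_left (mul_le_mul (co_le_nw w x p) (co_le_nw w y p) (norm_nonneg _)
    (nw_nonneg w x)) (norm_nonneg _)

end Vale.Agent.P011.E6X
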