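import Vale.Agent.P011.E6X.H342.Co
import Vale.Agent.P011.E6X.H69.TyAt
import Vale.Agent.P011.E6X.H408.Est
import Vale.Agent.P011.E6.Ids

/-!
Block E6X: the form on a point which is adjacent to two points near the standard ones.
-/

open NumberField Matrix

namespace Vale.Agent.P011.E6X

open Vale.Agent.P011.MPQ Vale.Agent.P011.D4 Vale.Agent.P011.D4.Oct Vale.Agent.P011.E6
open Vale.Agent.P011.E6O
open Vale.Agent.P011.E6O.Sl (XX YY ZZ)

variable {k E : Type} [Field k] [Field E] [Algebra k E]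
  {ρ σ : E ≃ₐ[k] E} {lam : Eˣ} {g : Fin 3 → Eˣ} {al s : E} {a b c : kˣ}

/-- The octonion `e₊ j`. -/
def xy (al : E) {a b c : kˣ} : OctL E a b c :=
  ⟨mkq (up E a) (up E b) al 0 0 1 0, 0⟩

theorem co_xy (h2 : (2 : E) ≠ 0) (hal : al ^ 2 = algebraMap k E a) (i : Fin 3)
    (p : Fin 3 × Fin 3 × Fin 3) :
    co al (pb (xy al : OctL E a b c) i) p = if p = (1, 1, i) then 1 else 0 := by
  have hal' : al ^ 2 = ((up E a : Eˣ) : E) := hal
  obtain ⟨e1, e2, e3, e4⟩ := mkq_co (b := up E b) h2 hal' 0 0 1 0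
  obtain ⟨t, p, q⟩ := p
  have h : co al (pb (xy al : OctL E a b c) i) (t, p, q) =
    (![XX al (pb (xy al : OctL E a b c) i), YY al (pb (xy al : OctL E a b c) i),
      ZZ al (pb (xy al : OctL E a b c) i)] : Fin 3 → Matrix (Fin 3) (Fin 3) E) t p q := rfl
  rw [h]
  simp only [XX, YY, ZZ, LinearMap.coe_mk, AddHom.coe_mk, pb, xy, fst_smul, snd_smul, ca_smul,
    cb_smul, cg_smul, cd_smul, e1, e2, e3, e4, ca_zero, cb_zero, cg_zero, cd_zero, mul_zero,
    mul_one]
  fin_cases t <;> fin_cases p <;> fin_cases q <;> simp [eq_comm]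

theorem her_xy (h2 : (2 : E) ≠ 0) (hal : al ^ 2 = algebraMap k E a) (hσal : σ al = -al)
    (i j : Fin 3) :
    her σ g (pb (xy al : OctL E a b c) i) (pb (xy al) j) =
      if i = j then -(up E b : E) * (![(g 1 : E) * g 2, g 2 * g 0, g 0 * g 1] : Fin 3 → E) i
        else 0 := by
  rw [her_cf h2 hal hσal]
  simp only [co_xy h2 hal]
  rw [Finset.sum_eq_single (1, 1, i)]
  · by_cases hij : i = j
    · subst hij
      simp only [if_true, map_one, mul_one, cf, Matrix.cons_val_one, Matrix.cons_val_zero]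
      ring
    · rw [if_neg (show ¬ ((1, 1, i) : Fin 3 × Fin 3 × Fin 3) = (1, 1, j) by simpa using hij),
        if_neg hij, map_zero, mul_zero, mul_zero]
  · intro p _ hp
    rw [if_neg hp, zero_mul, mul_zero]
  · intro h
    exact absurd (Finset.mem_univ _) h

/-- The Gram matrix depends continuously on the elements. -/
theorem gram_close (h2 : (2 : E) ≠ 0) (hal : al ^ 2 = algebraMap k E a) (hσal : σ al = -al)
    {w : E →+* ℂ} (hw : SC σ w) (y0 : Fin 3 → AlbL E a b c) {ε : ℝ} (hε : 0 < ε) :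
    ∃ η : ℝ, 0 < η ∧ ∀ y : Fin 3 → AlbL E a b c, (∀ i, nw w al (y i - y0 i) ≤ η) →
      ∀ i j, ‖w (her σ g (y i) (y j)) - w (her σ g (y0 i) (y0 j))‖ < ε := by
  obtain ⟨C, hC, hb⟩ := her_bound (g := g) (b := b) (c := c) h2 hal hσal hw
  obtain ⟨M, hM, hM'⟩ : ∃ M : ℝ, 0 < M ∧ ∀ i, nw w al (y0 i) ≤ M := by
    refine ⟨∑ i, nw w al (y0 i) + 1, ?_, fun i => ?_⟩
    · have := Finset.sum_nonneg fun i (_ : i ∈ Finset.univ) => nw_nonneg (al := al) w (y0 i)
      linarith
    · have := Finset.single_le_sum (f := fun i => nw w al (y0 i))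
        (fun i _ => nw_nonneg w (y0 i)) (Finset.mem_univ i)
      linarith
  have hK : 0 < 2 * C * (M + 1) + 1 := by positivity
  refine ⟨min 1 (ε / (2 * C * (M + 1) + 1)), by positivity, fun y hy i j => ?_⟩
  set η := min 1 (ε / (2 * C * (M + 1) + 1)) with hη
  have h1 : η ≤ 1 := min_le_left _ _
  have h3 : η * (2 * C * (M + 1) + 1) ≤ ε := by
    rw [← le_div_iff₀ hK]
    exact min_le_right _ _
  have h0 : 0 < η := by positivity
  have e1 : her σ g (y i) (y j) = her σ g (y i - y0 i) (y j) + her σ g (y0 i) (y j - y0 j) +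
      her σ g (y0 i) (y0 j) := by
    rw [add_assoc, ← H493.her_add_right, sub_add_cancel, ← H493.her_add_left, sub_add_cancel]
  have e2 : nw w al (y j) ≤ M + 1 := by
    have h4 := nw_add_le w (al := al) (y j - y0 j) (y0 j)
    rw [sub_add_cancel] at h4
    linarith [hy j, hM' j]
  rw [e1, map_add, add_sub_cancel_right, map_add]
  have a1 := hb (y i - y0 i) (y j)
  have a2 := hb (y0 i) (y j - y0 j)
  have b1 : C * nw w al (y i - y0 i) * nw w al (y j) ≤ C * η * (M + 1) :=
    mul_le_mul (mul_le_mul_of_nonneg_left (hy i) hC.le) e2 (nw_nonneg w _) (by positivity)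
  have b2 : C * nw w al (y0 i) * nw w al (y j - y0 j) ≤ C * M * η :=
    mul_le_mul (mul_le_mul_of_nonneg_left (hM' i) hC.le) (hy j) (nw_nonneg w _) (by positivity)
  have h5 := norm_add_le (w (her σ g (y i - y0 i) (y j))) (w (her σ g (y0 i) (y j - y0 j)))
  nlinarith [mul_pos hC h0]

/-- The core estimate. -/
def Core (w : E →+* ℂ) (al : E) (a b c : kˣ) : Prop :=
  ∃ C : ℝ, 0 < C ∧ ∀ δ : ℝ, 0 ≤ δ → δ ≤ 1 → ∀ (p v : Fin 3 → AlbL E a b c) (y : AlbL E a b c),
    (∀ i, nw w al (p i - pb (xm al) i) ≤ δ) → (∀ i, nw w al (v i - pb (xj al) i) ≤ δ) →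
    (∀ i, Alb.cross (p i) y = 0) → (∀ i, Alb.cross (v i) y = 0) →
    ∀ q : Fin 3 × Fin 3 × Fin 3, ¬ (q.1 = 1 ∧ q.2.1 = 1) → ‖w (co al y q)‖ ≤ C * δ * nw w al y

theorem nw_le_of (w : E →+* ℂ) {y : AlbL E a b c} {B : ℝ} (hB : 0 ≤ B)
    (h : ∀ q : Fin 3 × Fin 3 × Fin 3, ¬ (q.1 = 1 ∧ q.2.1 = 1) → ‖w (co al y q)‖ ≤ B) :
    nw w al y ≤ (∑ j, ‖w (co al y (1, 1, j))‖) + 27 * B := by
  have h1 : nw w al y ≤ ∑ q : Fin 3 × Fin 3 × Fin 3,
      ((if q.1 = 1 ∧ q.2.1 = 1 then ‖w (co al y q)‖ else 0) + B) := by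
    rw [nw_co]
    refine Finset.sum_le_sum fun q _ => ?_
    by_cases hq : q.1 = 1 ∧ q.2.1 = 1
    · rw [if_pos hq]
      linarith
    · rw [if_neg hq, zero_add]
      exact h q hq
  refine h1.trans (le_of_eq ?_)
  rw [Finset.sum_add_distrib, Finset.sum_const, Finset.card_univ]
  have e1 : Fintype.card (Fin 3 × Fin 3 × Fin 3) = 27 := by simp
  rw [e1, nsmul_eq_mul]
  congr 1
  simp [Fintype.sum_prod_type, Fin.sum_univ_three]

theorem w_real {w : E →+* ℂ} (hw : SC σ w) (f : k) : w (algebraMap k E f) = (vk w f : ℂ) := by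
  have h1 := hw (algebraMap k E f)
  rw [σ.commutes] at h1
  exact (Complex.conj_eq_iff_re.1 h1.symm).symm

theorem cross_of_adj {P A : Submodule E (AlbL E a b c)}
    (h : ∀ x ∈ P, ∀ y ∈ A, Alb.adj (x + y) = 0) {x y : AlbL E a b c} (hx : x ∈ P) (hy : y ∈ A) :
    Alb.cross x y = 0 := by
  have h1 := h x hx 0 A.zero_mem
  have h2 := h 0 P.zero_mem y hy
  have h3 := h x hx y hy
  rw [add_zero] at h1
  rw [zero_add] at h2
  rw [Alb.adj_add, h1, h2, zero_add, add_zero] at h3
  exact h3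

/-- The form on a point which is adjacent to two points near the standard ones. -/
theorem near_A_of (H : E6X.Hyp ρ σ lam g al s a b c) (h2 : (2 : E) ≠ 0) {w : E →+* ℂ}
    (hw : SC σ w) (core : Core w al a b c) :
    ∃ ε : ℝ, 0 < ε ∧ ∀ P V A : Submodule E (AlbL E a b c), IsPt ρ lam A →
      NearP w al ε (xm al) P → NearP w al ε (xj al) V →
      (∀ x ∈ P, ∀ y ∈ A, Alb.adj (x + y) = 0) → (∀ x ∈ V, ∀ y ∈ A, Alb.adj (x + y) = 0) →
        TyAt σ g w (-(b : k)) A := by
  obtain ⟨C, hC, hc⟩ := core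
  obtain ⟨θ, hθ, hn⟩ := tyAt_near (g := g) hw H.σg (f := -(b : k)) (neg_ne_zero.2 b.ne_zero)
  obtain ⟨η, hη, hcl⟩ := gram_close (g := g) h2 H.al2 H.σal hw (pb (xy al : OctL E a b c)) hθ
  have hK : 0 < 54 * C + 1 := by positivity
  refine ⟨min 1 (min η 1 / (54 * C + 1)), by positivity, ?_⟩
  rintro P V A hA ⟨p, hp, hp'⟩ ⟨v, hv, hv'⟩ hPA hVA
  set δ := min 1 (min η 1 / (54 * C + 1)) with hδ
  have d0 : 0 < δ := by positivity
  have d1 : δ ≤ 1 := min_le_left _ _
  have d2 : δ * (54 * C + 1) ≤ min η 1 := by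
    rw [← le_div_iff₀ hK]
    exact min_le_right _ _
  have d3 : 54 * C * δ ≤ η := by
    have := min_le_left η 1
    nlinarith
  have d4 : 54 * C * δ ≤ 1 := by
    have := min_le_right η 1
    nlinarith
  have hest : ∀ y ∈ A, ∀ q : Fin 3 × Fin 3 × Fin 3, ¬ (q.1 = 1 ∧ q.2.1 = 1) →
      ‖w (co al y q)‖ ≤ C * δ * nw w al y := fun y hy =>
    hc δ d0.le d1 p v y hp' hv' (fun i => cross_of_adj hPA (hp i) hy)
      (fun i => cross_of_adj hVA (hv i) hy)
  have hbd : ∀ y ∈ A, nw w al y ≤ 2 * ∑ j, ‖w (co al y (1, 1, j))‖ := by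
    intro y hy
    have h3 := nw_nonneg (al := al) w y
    have h4 := nw_le_of w (B := C * δ * nw w al y) (by positivity) (hest y hy)
    nlinarith
  -- the projection to the second row
  let f : A →ₗ[E] (Fin 3 → E) := (LinearMap.funLeft E E fun j : Fin 3 =>
    ((1, 1, j) : Fin 3 × Fin 3 × Fin 3)) ∘ₗ co al ∘ₗ A.subtype
  have hf : ∀ (y : A) j, f y j = co al (y : AlbL E a b c) (1, 1, j) := fun y j => rfl
  have hfin : Module.Finite E A := Module.finite_of_finrank_pos (by rw [hA.dim]; omega)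
  have hinj : Function.Injective f := by
    rw [← LinearMap.ker_eq_bot, LinearMap.ker_eq_bot']
    intro y hy
    have h3 := hbd y y.2
    have h4 : ∑ j, ‖w (co al (y : AlbL E a b c) (1, 1, j))‖ = 0 := by
      refine Finset.sum_eq_zero fun j _ => ?_
      rw [← hf, hy, Pi.zero_apply, map_zero, _root_.norm_zero]
    rw [h4, mul_zero] at h3
    exact Subtype.ext (nw_eq_zero h2 H.al2 (le_antisymm h3 (nw_nonneg w _)))
  have hsur : Function.Surjective f := by
    refine (LinearMap.injective_iff_surjective_of_finrank_eq_finrank ?_).mp hinj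
    rw [hA.dim, Module.finrank_fintype_fun_eq_card, Fintype.card_fin]
  choose y hy using fun i : Fin 3 => hsur (Pi.single i 1)
  have hyc : ∀ i j, co al (y i : AlbL E a b c) (1, 1, j) = if i = j then 1 else 0 := by
    intro i j
    rw [← hf, hy, Pi.single_apply]
    simp only [eq_comm]
  have hny : ∀ i, nw w al (y i : AlbL E a b c) ≤ 2 := by
    intro i
    have h3 := hbd (y i) (y i).2
    have h4 : ∑ j, ‖w (co al (y i : AlbL E a b c) (1, 1, j))‖ = 1 := by
      rw [Finset.sum_eq_single i]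
      · rw [hyc, if_pos rfl, map_one, NormOneClass.norm_one]
      · intro j _ hj
        rw [hyc, if_neg (Ne.symm hj), map_zero, _root_.norm_zero]
      · intro h
        exact absurd (Finset.mem_univ _) h
    rw [h4] at h3
    linarith
  have hnear : ∀ i, nw w al ((y i : AlbL E a b c) - pb (xy al) i) ≤ η := by
    intro i
    have h3 := nw_le_of w (al := al) (y := (y i : AlbL E a b c) - pb (xy al) i)
      (B := C * δ * 2) (by positivity) (by
        intro q hq
        rw [map_sub, Pi.sub_apply, co_xy h2 H.al2, if_neg (by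
          rintro rfl
          exact hq ⟨rfl, rfl⟩), sub_zero]
        exact (hest _ (y i).2 q hq).trans
          (mul_le_mul_of_nonneg_left (hny i) (by positivity)))
    have h4 : ∑ j, ‖w (co al ((y i : AlbL E a b c) - pb (xy al) i) (1, 1, j))‖ = 0 := by
      refine Finset.sum_eq_zero fun j _ => ?_
      rw [map_sub, Pi.sub_apply, co_xy h2 H.al2, hyc]
      by_cases hij : i = j
      · subst hij
        simp
      · rw [if_neg hij, if_neg (by simpa [eq_comm] using hij), sub_zero, map_zero, _root_.norm_zero]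
    rw [h4] at h3
    linarith
  obtain ⟨Q, hQ, hQ'⟩ := hn (gram σ g w fun i => (y i : AlbL E a b c))
    (gram_herm H hw _) (by
      intro i j
      have h3 := hcl (fun i => (y i : AlbL E a b c)) hnear i j
      rw [her_xy h2 H.al2 H.σal] at h3
      have h4 : w (algebraMap k E (-(b : k))) * gst g w i j =
          w (if i = j then -(up E b : E) *
            (![(g 1 : E) * g 2, g 2 * g 0, g 0 * g 1] : Fin 3 → E) i else 0) := by
        rw [map_neg]
        have h5 : algebraMap k E (b : k) = (up E b : E) := rfl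
        rw [h5]
        by_cases hij : i = j
        · subst hij
          rw [if_pos rfl, map_mul, gst, Matrix.diagonal_apply_eq]
          fin_cases i <;> rfl
        · rw [if_neg hij, gst, Matrix.diagonal_apply_ne _ hij, mul_zero, map_zero]
      rw [h4]
      exact h3)
  exact ⟨fun i => y i, fun i => (y i).2, Q, hQ, hQ'⟩

theorem core (h2 : (2 : E) ≠ 0) (hal : al ^ 2 = algebraMap k E a) (w : E →+* ℂ) :
    Core w al a b c := by
  have hc0 : 0 < 1 + ‖w (up E c : E)‖⁻¹ := by positivity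
  refine ⟨(1 + ‖w (up E c : E)‖⁻¹) * 54, by positivity,
    fun δ _ _ p v y hp hv hpy hvy q hq => ?_⟩
  obtain ⟨h1, h3, h4, h5⟩ := H408.near_core w h2 hal hp hv hpy hvy
  have e : (1 + ‖w (up E c : E)‖⁻¹) * 54 * δ * nw w al y =
      (1 + ‖w (up E c : E)‖⁻¹) * (54 * δ * nw w al y) := by ring
  rw [e]
  obtain ⟨t, i, j⟩ := q
  fin_cases t
  · exact h1 i j
  · fin_cases i
    · exact h3 j
    · exact absurd ⟨rfl, rfl⟩ hq
    · exact h4 j
  · exact h5 i j

/-- The form on a point which is adjacent to two points near the standard ones. -/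
theorem near_A [CharZero E] (H : E6X.Hyp ρ σ lam g al s a b c) {w : E →+* ℂ} (hw : SC σ w) :
    ∃ ε : ℝ, 0 < ε ∧ ∀ P V A : Submodule E (AlbL E a b c), IsPt ρ lam A →
      NearP w al ε (xm al) P → NearP w al ε (xj al) V →
      (∀ x ∈ P, ∀ y ∈ A, Alb.adj (x + y) = 0) → (∀ x ∈ V, ∀ y ∈ A, Alb.adj (x + y) = 0) →
        TyAt σ g w (-(b : k)) A :=
  near_A_of H two_ne_zero hw (core two_ne_zero H.al2 w)

end Vale.Agent.P011.E6X
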